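import Vale.Agent.P122.E.RGC

/-!
# P122 / H428 : the fields `L` and `B1` of `H11.PLaw`
-/

set_option autoImplicit false

namespace Vale.Agent.P122.H428

open Filter Topology Finset Vale.Agent.P127 Vale.Agent.P127.Stk Vale.Agent.P127.U Vale.Agent.P127.U.Sys
  Vale.Agent.P122.C2 Vale.Agent.P122.E Vale.Agent.P122.H610

variable {K : ℕ} {Z : CS K}

/-- nodes with the same piece : at most `2 ^ (2 n)` -/
theorem card_sg_le (n : ℕ) (σ : Nd) (U : Finset Nd) (hU : ∀ S ∈ U, S.sg n = σ) : (U.card : ℝ) ≤ 2 ^ (2 * n) := by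
  classical
  have h1 : U.card ≤ (kids n σ.o).card := by
    refine Finset.card_le_card_of_injOn (fun S => S.o) ?_ ?_
    · intro S hS
      have e := hU S hS
      simp only [kids, Finset.mem_coe, Fintype.mem_piFinset, Finset.mem_Ico]
      intro k
      have e2 : σ.o k = S.o k / 2 ^ n := by rw [← e]; rfl
      have hp : (0:ℤ) < 2 ^ n := by positivity
      rw [e2]
      constructor
      · have := Int.mul_ediv_self_le (x := S.o k) (k := 2 ^ n) hp.ne'
        exact this
      · have := Int.lt_mul_ediv_self_add (x := S.o k) hp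
        linarith
    · intro S hS S' hS' heq
      have e := hU S hS
      have e' := hU S' hS'
      have e3 : S.sg n = S'.sg n := e.trans e'.symm
      have t1 : (S.sg n).τ = (S'.sg n).τ := by rw [e3]
      have t2 : (S.sg n).T = (S'.sg n).T := by rw [e3]
      exact Nd.ext t1 heq t2
  rw [card_kids] at h1
  exact_mod_cast h1

/-- **L** -/
theorem law_L (W : VS Z) {c : ℕ} (hc : c < K) : 2 * thn W c ≤ W.Jn c := by
  have hC : 0 < Z.C := lt_of_lt_of_le one_pos Z.C1
  refine le_of_forall_pos_le_add fun ε hε => ?_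
  have hkey : thn W c ≤ W.Jn c / 2 + ε / 2 := by
    refine CS.le_of_ev (thn_OL W hc) fun η hη => ?_
    have hη4 : 0 < η / 4 := by positivity
    filter_upwards [CS.le_lg (W.J_OL hc) (show 0 < ε / 2 by positivity), CS.const_le (Z := Z) (Real.logb 2 (4 * Z.C)) hη4,
      W.ρbig.neg_log_le hη4, Z.L_pos] with i h1 h2 h3 hL
    obtain ⟨f, hf⟩ := W.fl_ne i
    have hS := nd_D (W.ok i) hc.le hf
    have h4 := (W.ok i).L (W.ρpos i) hC.le hc hS
    have a0 := (W.ok i).apos c hc.le
    have a1 := (W.ok i).apos (c + 1) (by omega)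
    have r0 := W.ρpos i
    have h6 : W.a i c / W.a i (c + 1) ≤ 4 * Z.C * 2 ^ (W.J i c) / W.ρ i := by
      rw [div_le_div_iff₀ a1 r0]
      linarith
    have h7 := Real.logb_le_logb_of_le (by norm_num : (1:ℝ) < 2) (by positivity) h6
    rw [Real.logb_div (by positivity) r0.ne', Real.logb_mul (by positivity) (by positivity),
      ← Real.rpow_natCast, Real.logb_rpow (by norm_num) (by norm_num)] at h7
    have e2 : Z.lg (fun i => (W.J i c : ℝ)) = W.Jn c := rfl
    rw [e2] at h1
    have hJ0 : 0 ≤ W.Jn c := W.Jn_nonneg hc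
    refine max_le (by positivity) ?_
    nlinarith
  linarith

/-- **B1** -/
theorem law_B1 (W : VS Z) {c : ℕ} (hc : c < K) : Cnt W.sys (W.flg.N c) (W.flg.sg c) (2 / K - 2 * thn W c) := by
  classical
  have hC : 0 < Z.C := lt_of_lt_of_le one_pos Z.C1
  intro ε hε
  have hε4 : 0 < ε / 4 := by positivity
  filter_upwards [CS.lg_le (thn_OL W hc) hε4, CS.const_le (Z := Z) (Real.logb 2 (8 * Z.C)) hε4,
    W.ρbig.neg_log_le (show 0 < ε / 8 by positivity), Z.L_pos] with i h1 h2 h3 hL ω _
  have e1 : Z.lg (fun i => max 0 (Real.logb 2 (W.a i c / W.a i (c + 1)) - (W.J i c : ℝ) / 2)) = thn W c := rfl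
  rw [e1] at h1
  set U : Finset Nd := (W.D c i).filter fun S => S.sg (Z.n i) = W.flg.sg c i ω with hU
  refine ⟨U, ?_, ?_⟩
  · have hUσ : ∀ S ∈ U, S.sg (Z.n i) = W.flg.sg c i ω := fun S hS => (mem_filter.1 hS).2
    have a0 := (W.ok i).apos c hc.le
    have a1 := (W.ok i).apos (c + 1) (by omega)
    have r0 := W.ρpos i
    have hKp : (0 : ℝ) < K := by exact_mod_cast Z.K1
    have hexp : (2 / K - 2 * thn W c + ε) * (W.sys.L i : ℝ) = 2 * (Z.n i : ℝ) + (-2 * thn W c + ε) * Z.L i := by
      have e3 : (W.sys.L i : ℝ) = Z.L i := rfl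
      rw [e3, Z.L_eq]
      field_simp
      ring
    rw [hexp]
    rcases le_total (Real.logb 2 (W.a i c / W.a i (c + 1)) - (W.J i c : ℝ) / 2) 0 with h4 | h4
    · rw [max_eq_left h4] at h1
      have h5 := card_sg_le (Z.n i) _ U hUσ
      refine h5.trans ?_
      rw [← Real.rpow_natCast]
      refine Real.rpow_le_rpow_of_exponent_le (by norm_num) ?_
      push_cast
      nlinarith
    · rw [max_eq_right h4] at h1
      rcases U.eq_empty_or_nonempty with h0 | hne
      · rw [h0]
        simp only [card_empty, Nat.cast_zero]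
        positivity
      have h5 := (W.ok i).B1 r0 hC.le hc (W.flg.sg c i ω) U (filter_subset _ _) hUσ
      have hcard : (0 : ℝ) < U.card := by exact_mod_cast hne.card_pos
      rw [← Real.logb_le_iff_le_rpow (by norm_num) hcard]
      have h6 : (U.card : ℝ) ≤ 8 * Z.C * 2 ^ (2 * Z.n i + W.J i c) / (W.ρ i) ^ 2 / (W.a i c / W.a i (c + 1)) ^ 2 := by
        rw [div_pow, le_div_iff₀ (by positivity), le_div_iff₀ (by positivity)]
        calc (U.card : ℝ) * (W.a i c ^ 2 / W.a i (c + 1) ^ 2) * W.ρ i ^ 2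
            = ((U.card : ℝ) * (W.ρ i * W.a i c) ^ 2) / W.a i (c + 1) ^ 2 := by ring
          _ ≤ (8 * Z.C * 2 ^ (2 * Z.n i + W.J i c) * W.a i (c + 1) ^ 2) / W.a i (c + 1) ^ 2 :=
              div_le_div_of_nonneg_right h5 (by positivity)
          _ = _ := by
              field_simp
      have h7 := Real.logb_le_logb_of_le (by norm_num : (1:ℝ) < 2) hcard h6
      rw [Real.logb_div (by positivity) (by positivity), Real.logb_div (by positivity) (by positivity),
        Real.logb_mul (by positivity) (by positivity), Real.logb_pow, Real.logb_pow, Real.logb_pow,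
        Real.logb_self_eq_one (by norm_num)] at h7
      push_cast at h7
      nlinarith
  · intro ω' _ hω'
    rw [hU, mem_filter]
    refine ⟨nd_D (W.ok i) hc.le ω'.2, ?_⟩
    exact hω'

end Vale.Agent.P122.H428
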