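import Vale.Agent.P122.H428.V0

/-!
# P122 / H428 : the first valid structure of a violation (RG0, finite form)

`rg0_fin` : for `δ, ε > 0` there are `n0, c` such that every violation of `StCORE` at `n ≥ n0` has a nonempty valid structure
`V` with loss `ρ ≥ 2^(-ε L)`, `2^((δ-ε) L) √Λ 2^(4L) Q ≤ #V.X a₀³` and amplitudes and cardinality bounded by `2^(c (n+1))`.
-/

set_option autoImplicit false

namespace Vale.Agent.P122.H428

open Vale.Agent.P122.C2 Finset Filter Topology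

variable {C : ℝ} {n K : ℕ}

/-- polynomials are eventually smaller than exponentials -/
theorem poly_exp (B : ℝ) (k : ℕ) {r : ℝ} (hr : 1 < r) : ∀ᶠ n : ℕ in atTop, B * ((n : ℝ) + 1) ^ k ≤ r ^ n := by
  have h1 := tendsto_pow_const_div_const_pow_of_one_lt k hr
  have h2 := h1.comp (tendsto_add_atTop_nat 1)
  have hr0 : 0 < r := by linarith
  have h3 : ∀ᶠ n : ℕ in atTop, (((n + 1 : ℕ) : ℝ) ^ k / r ^ (n + 1)) < 1 / ((|B| + 1) * r) :=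
    h2.eventually (gt_mem_nhds (by positivity))
  filter_upwards [h3] with n hn
  rw [div_lt_div_iff₀ (by positivity) (by positivity), one_mul, pow_succ r] at hn
  push_cast at hn
  have h4 : ((n : ℝ) + 1) ^ k * (|B| + 1) ≤ r ^ n := by
    have h5 : ((n : ℝ) + 1) ^ k * (|B| + 1) * r ≤ r ^ n * r := by
      calc ((n : ℝ) + 1) ^ k * (|B| + 1) * r = ((n : ℝ) + 1) ^ k * ((|B| + 1) * r) := by ring
        _ ≤ r ^ n * r := hn.le
    exact le_of_mul_le_mul_right h5 hr0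
  have h6 : B * ((n : ℝ) + 1) ^ k ≤ ((n : ℝ) + 1) ^ k * (|B| + 1) := by
    have h7 : B ≤ |B| + 1 := (le_abs_self B).trans (by linarith)
    have h8 : (0:ℝ) ≤ ((n : ℝ) + 1) ^ k := by positivity
    nlinarith
  exact h6.trans h4

theorem nq_le (C : ℝ) (n K : ℕ) : nq C n K ≤ (K * Nat.clog 2 ⌈2 * C ^ 2⌉₊ + 6 * K + 1) * (n + 1) := by
  unfold nq
  nlinarith [Nat.zero_le (K * Nat.clog 2 ⌈2 * C ^ 2⌉₊ * n), Nat.zero_le n]

theorem loss_le (C : ℝ) (n K : ℕ) : ((nq C n K * (2 * n + 1) : ℕ) : ℝ) ^ K * nq C n K ≤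
    ((2 * (K * Nat.clog 2 ⌈2 * C ^ 2⌉₊ + 6 * K + 1) : ℕ) : ℝ) ^ (K + 1) * ((n : ℝ) + 1) ^ (2 * K + 1) := by
  set A : ℕ := K * Nat.clog 2 ⌈2 * C ^ 2⌉₊ + 6 * K + 1 with hA
  have h1 := nq_le C n K
  rw [← hA] at h1
  have h2 : nq C n K * (2 * n + 1) ≤ (2 * A) * (n + 1) ^ 2 := by
    calc nq C n K * (2 * n + 1) ≤ (A * (n + 1)) * (2 * (n + 1)) := Nat.mul_le_mul h1 (by omega)
      _ = (2 * A) * (n + 1) ^ 2 := by ring
  have h3 : nq C n K ≤ (2 * A) * (n + 1) := h1.trans (Nat.mul_le_mul_right _ (by omega))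
  have h4 : (nq C n K * (2 * n + 1)) ^ K * nq C n K ≤ (2 * A) ^ (K + 1) * (n + 1) ^ (2 * K + 1) := by
    calc (nq C n K * (2 * n + 1)) ^ K * nq C n K ≤ ((2 * A) * (n + 1) ^ 2) ^ K * ((2 * A) * (n + 1)) :=
          Nat.mul_le_mul (Nat.pow_le_pow_left h2 K) h3
      _ = (2 * A) ^ (K + 1) * (n + 1) ^ (2 * K + 1) := by
          rw [mul_pow, ← pow_mul, pow_succ (2 * A) K, pow_succ (n + 1) (2 * K)]
          ring
  exact_mod_cast h4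

/-- **RG0, finite form** -/
theorem rg0_fin (K : ℕ) (hK : 1 ≤ K) (C : ℝ) (hC : 1 ≤ C) (δ ε : ℝ) (hδ : 0 < δ) (hε : 0 < ε) :
    ∃ n0 c : ℕ, ∀ n, n0 ≤ n → ∀ (F : Amp C n K) (Λ Q : ℝ), KTop F Λ → (∀ U : Finset Nd, ∑ S ∈ U, F.a K S ^ 2 ≤ Q) →
      ∀ X : Finset Nd, (∀ x ∈ X, x.τ = 0 ∧ 0 ≤ x.T ∧ x.T < 2 ^ (2 * K * n)) →
      2 ^ (δ * (K * n)) * Real.sqrt Λ * 2 ^ (4 * K * n) * Q < ∑ x ∈ X, F.a 0 x ^ 3 →
      ∃ (V : Val) (a : ℕ → ℝ) (J : ℕ → ℕ) (ρ : ℝ), V.X ⊆ X ∧ V.X.Nonempty ∧ (∀ i σ, V.G i σ ⊆ kids n σ.τ) ∧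
        0 < ρ ∧ ρ ≤ 1 ∧ (2:ℝ) ^ (-(ε * (K * n))) ≤ ρ ∧ V.Ok F ρ a J ∧
        2 ^ ((δ - ε) * (K * n)) * Real.sqrt Λ * 2 ^ (4 * K * n) * Q ≤ V.X.card * a 0 ^ 3 ∧
        (∃ b : ℝ, 0 < b ∧ ∀ i, i ≤ K → b ≤ a i ∧ a i ≤ b * 2 ^ (c * (n + 1))) ∧
        (V.X.card : ℝ) ≤ 2 ^ (c * (n + 1)) := by
  set A : ℕ := K * Nat.clog 2 ⌈2 * C ^ 2⌉₊ + 6 * K + 1 with hA
  have hKpos : (0:ℝ) < K := by exact_mod_cast hK
  have hr : (1:ℝ) < 2 ^ (ε * K) := Real.one_lt_rpow (by norm_num) (by positivity)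
  have hr' : (1:ℝ) < 2 ^ (δ * K) := Real.one_lt_rpow (by norm_num) (by positivity)
  have hev := poly_exp (16 * ((2 * A : ℕ) : ℝ) ^ (K + 1)) (2 * K + 1) hr
  have hev' := poly_exp (2 * (2 * (C + 3 * K) + 1) ^ 2) 0 hr'
  obtain ⟨n0, hn0⟩ := Filter.eventually_atTop.1 (hev.and hev')
  refine ⟨n0, A + Nat.clog 2 ⌈(2 * (C + 3 * K) + 1) ^ 2⌉₊, ?_⟩
  intro n hn F Λ Q hΛ hQ X hX hviol
  obtain ⟨h1, h2⟩ := hn0 n hn
  obtain ⟨V, a, J, g1, g2, g3, g4, b, g5, g6⟩ := exists_val_top F hC hΛ hQ X hX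
  set N : ℝ := ((nq C n K * (2 * n + 1) : ℕ) : ℝ) ^ K with hN
  have hq1 : 1 ≤ nq C n K := by unfold nq; omega
  have hN1 : 1 ≤ N := by
    rw [hN]
    refine one_le_pow₀ ?_
    have : 1 ≤ nq C n K * (2 * n + 1) := Nat.one_le_iff_ne_zero.2 (by positivity)
    exact_mod_cast this
  have hNq : 16 * (N * nq C n K) ≤ 2 ^ (ε * (K * n)) := by
    have e1 : (2:ℝ) ^ (ε * (K * n)) = (2 ^ (ε * K)) ^ n := by
      rw [← Real.rpow_natCast, ← Real.rpow_mul (by norm_num)]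
      congr 1
      ring
    rw [e1]
    calc 16 * (N * nq C n K) ≤ 16 * (((2 * A : ℕ) : ℝ) ^ (K + 1) * ((n : ℝ) + 1) ^ (2 * K + 1)) :=
          mul_le_mul_of_nonneg_left (loss_le C n K) (by norm_num)
      _ = 16 * ((2 * A : ℕ) : ℝ) ^ (K + 1) * ((n : ℝ) + 1) ^ (2 * K + 1) := by ring
      _ ≤ _ := h1
  have hq1' : (1:ℝ) ≤ nq C n K := by exact_mod_cast hq1
  have hN2 : 2 * N ≤ 2 ^ (ε * (K * n)) := by nlinarith
  have hQ0 : 0 ≤ Q := by simpa using hQ ∅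
  have hS0 : 0 ≤ Real.sqrt Λ * Q := mul_nonneg (Real.sqrt_nonneg _) hQ0
  have hδ1 : 2 * (2 * (C + 3 * K) + 1) ^ 2 ≤ (2:ℝ) ^ (δ * (K * n)) := by
    have e1 : (2:ℝ) ^ (δ * (K * n)) = (2 ^ (δ * K)) ^ n := by
      rw [← Real.rpow_natCast, ← Real.rpow_mul (by norm_num)]
      congr 1
      ring
    rw [e1]
    simpa using h2
  have h4 : (1:ℝ) ≤ 2 ^ (4 * K * n) := one_le_pow₀ (by norm_num)
  -- the main term carries half
  have h5 : (2 * (C + 3 * K) + 1) ^ 2 * (Real.sqrt Λ * Q) ≤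
      (1 / 2) * (2 ^ (δ * (K * n)) * Real.sqrt Λ * 2 ^ (4 * K * n) * Q) := by
    have e1 : (2 * (C + 3 * K) + 1) ^ 2 ≤ (1 / 2) * (2:ℝ) ^ (δ * (K * n)) * 2 ^ (4 * K * n) := by
      have : (2 * (C + 3 * K) + 1) ^ 2 ≤ (1 / 2) * (2:ℝ) ^ (δ * (K * n)) := by linarith
      refine this.trans ?_
      have h0 : (0:ℝ) ≤ (1 / 2) * (2:ℝ) ^ (δ * (K * n)) := by positivity
      nlinarith
    calc (2 * (C + 3 * K) + 1) ^ 2 * (Real.sqrt Λ * Q) ≤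
          ((1 / 2) * (2:ℝ) ^ (δ * (K * n)) * 2 ^ (4 * K * n)) * (Real.sqrt Λ * Q) :=
          mul_le_mul_of_nonneg_right e1 hS0
      _ = _ := by ring
  have h6 : (1 / 2) * (2 ^ (δ * (K * n)) * Real.sqrt Λ * 2 ^ (4 * K * n) * Q) <
      N * nq C n K * ∑ x ∈ V.X, F.a 0 x ^ 3 := by linarith
  have h7 : ∑ x ∈ V.X, F.a 0 x ^ 3 ≤ V.X.card * (8 * a 0 ^ 3) := by
    rw [← nsmul_eq_mul]
    refine Finset.sum_le_card_nsmul _ _ _ fun x hx => ?_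
    have := (g3.amp 0 (by omega) x hx).2.le
    calc F.a 0 x ^ 3 ≤ (2 * a 0) ^ 3 := pow_le_pow_left₀ (F.a0 _ _) this 3
      _ = 8 * a 0 ^ 3 := by ring
  have ha0 : 0 < a 0 := g3.apos 0 (by omega)
  have hP0 : 0 ≤ 2 ^ (δ * (K * n)) * Real.sqrt Λ * 2 ^ (4 * K * n) * Q := by positivity
  have hne : V.X.Nonempty := by
    rw [Finset.nonempty_iff_ne_empty]
    intro h0
    rw [h0, Finset.sum_empty, mul_zero] at h6
    linarith
  refine ⟨V, a, J, 1 / (2 * N), g1, hne, g2, by positivity, ?_, ?_, g3, ?_, ⟨b, g5, fun i hi => ⟨(g6 i hi).1, ?_⟩⟩, ?_⟩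
  · rw [div_le_one (by positivity)]
    linarith
  · rw [Real.rpow_neg (by norm_num), ← one_div]
    exact one_div_le_one_div_of_le (by positivity) hN2
  · have h8 : (1 / 2) * (2 ^ (δ * (K * n)) * Real.sqrt Λ * 2 ^ (4 * K * n) * Q) ≤
        (8 * (N * nq C n K)) * (V.X.card * a 0 ^ 3) := by
      have h9 : N * nq C n K * ∑ x ∈ V.X, F.a 0 x ^ 3 ≤ N * nq C n K * (V.X.card * (8 * a 0 ^ 3)) :=
        mul_le_mul_of_nonneg_left h7 (by positivity)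
      linarith
    have h10 : (8 * (N * nq C n K)) * (V.X.card * a 0 ^ 3) ≤ (2 ^ (ε * (K * n)) / 2) * (V.X.card * a 0 ^ 3) := by
      refine mul_le_mul_of_nonneg_right (by linarith) (by positivity)
    have h11 : (2:ℝ) ^ (δ * (K * n)) = 2 ^ ((δ - ε) * (K * n)) * 2 ^ (ε * (K * n)) := by
      rw [← Real.rpow_add (by norm_num)]
      congr 1
      ring
    have h12 : (0:ℝ) < 2 ^ (ε * (K * n)) := by positivity
    have h13 : 2 ^ (ε * (K * n)) * (2 ^ ((δ - ε) * (K * n)) * Real.sqrt Λ * 2 ^ (4 * K * n) * Q) ≤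
        2 ^ (ε * (K * n)) * (V.X.card * a 0 ^ 3) := by
      have h14 := h8.trans h10
      rw [h11] at h14
      linarith
    exact le_of_mul_le_mul_left h13 h12
  · refine (g6 i hi).2.trans (mul_le_mul_of_nonneg_left (pow_le_pow_right₀ (by norm_num) ?_) g5.le)
    refine (nq_le C n K).trans (Nat.mul_le_mul_right _ ?_)
    omega
  · have h15 := card_pos F hC V.X (fun x hx => hX x (g1 hx)) (fun x hx => by
      have := (g3.amp 0 (by omega) x hx).1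
      exact ne_of_gt (lt_of_lt_of_le ha0 this))
    refine h15.trans ?_
    have h16 : (2 * (C + 3 * K) + 1) ^ 2 ≤ (2:ℝ) ^ Nat.clog 2 ⌈(2 * (C + 3 * K) + 1) ^ 2⌉₊ := by
      calc (2 * (C + 3 * K) + 1) ^ 2 ≤ (⌈(2 * (C + 3 * K) + 1) ^ 2⌉₊ : ℝ) := Nat.le_ceil _
        _ ≤ ((2 ^ Nat.clog 2 ⌈(2 * (C + 3 * K) + 1) ^ 2⌉₊ : ℕ) : ℝ) := by
            exact_mod_cast Nat.le_pow_clog (by norm_num) _
        _ = _ := by push_cast; ring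
    calc (2 * (C + 3 * K) + 1) ^ 2 * (2:ℝ) ^ (6 * K * n) ≤
          2 ^ Nat.clog 2 ⌈(2 * (C + 3 * K) + 1) ^ 2⌉₊ * 2 ^ (6 * K * n) := by gcongr
      _ = 2 ^ (Nat.clog 2 ⌈(2 * (C + 3 * K) + 1) ^ 2⌉₊ + 6 * K * n) := by rw [pow_add]
      _ ≤ _ := by
          refine pow_le_pow_right₀ (by norm_num) ?_
          have h17 : 6 * K ≤ A := by rw [hA]; omega
          nlinarith [Nat.zero_le n, Nat.zero_le (Nat.clog 2 ⌈(2 * (C + 3 * K) + 1) ^ 2⌉₊ * n), Nat.mul_le_mul_right n h17]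

end Vale.Agent.P122.H428
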